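import Vale.Agent.P207Z.Geo.LieW.Nat
import Vale.Agent.P207Z.Geo.Sec
import Vale.Agent.P207Z.Geo.Axis

/-!
# P207: the Margulis section is killed by the Lie derivatives along a subbundle of `E^s`
-/

set_option linter.all false
set_option maxSynthPendingDepth 3

open Set Filter Topology Metric MeasureTheory VectorField
open scoped ContDiff

noncomputable section

namespace Vale.Agent.P207Z

open Vale.Agent.P207.N3 (JC)

variable {Γ X B E V Y : Type} [Group Γ] [Countable Γ] [MetricSpace X] [ProperSpace X]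
  [MulAction Γ X] [IsIsometricSMul Γ X] [MeasurableSpace X] [BorelSpace X]
  [TopologicalSpace B] [CompactSpace B] [T2Space B] [SecondCountableTopology B] [MulAction Γ B]
  [ContinuousConstSMul Γ B] [MeasurableSpace B] [BorelSpace B]
  [NormedAddCommGroup E] [InnerProductSpace ℝ E] [FiniteDimensional ℝ E]
  [NormedAddCommGroup V] [NormedSpace ℝ V] [FiniteDimensional ℝ V]
  [MeasurableSpace Y] [MulAction Γ Y]
  {S : Sys Γ X B E V} {T : Bun S V} {m : ℕ} {b : Module.Basis (Fin m) ℝ E} {M : Marg S b}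
  {Φ : Bun S (Fm m V × ℝ)}

namespace LieW

/-! ### forms which kill the stable space -/

/-- the form kills the stable space -/
def Vol (S : Sys Γ X B E V) (α : Fm m V) : Prop := ∀ v, α v = α fun i => S.iU (S.pU (v i))

theorem Vol.eq (b : Module.Basis (Fin m) ℝ E) {α : Fm m V} (h : Vol S α) (v : Fin m → V) :
    α v = (α fun i => S.iU (b i)) * b.det fun i => S.pU (v i) := by
  have := congrArg (fun f : E [⋀^Fin m]→ₗ[ℝ] ℝ => f fun i => S.pU (v i))
    ((α.toAlternatingMap.compLinearMap (S.iU : E →ₗ[ℝ] V)).eq_smul_basis_det b)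
  rw [h]
  exact this

theorem Vol.smul (b : Module.Basis (Fin m) ℝ E) {α β : Fm m V} (h : Vol S α) (h' : Vol S β)
    (h0 : β ≠ 0) : ∃ k : ℝ, α = k • β := by
  have h1 : (β fun i => S.iU (b i)) ≠ 0 := fun e => h0 (ContinuousAlternatingMap.ext fun v => by
    rw [h'.eq b, e, zero_mul]; rfl)
  refine ⟨(α fun i => S.iU (b i)) / β fun i => S.iU (b i), ContinuousAlternatingMap.ext fun v => ?_⟩
  rw [ContinuousAlternatingMap.smul_apply, h.eq b v, h'.eq b v, smul_eq_mul]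
  field_simp

theorem Vol.der_apply {α : Fm m V} (h : Vol S α) (L : V →L[ℝ] V) (v : Fin m → V) :
    der m V L α v = ∑ i, α (Function.update (fun j => S.iU (S.pU (v j))) i (S.iU (S.pU (L (v i))))) := by
  rw [Vale.Agent.P207Z.der_apply]
  refine Finset.sum_congr rfl fun i _ => ?_
  rw [h]
  exact congrArg α (Function.comp_update (fun z => S.iU (S.pU z)) v i (L (v i)))

theorem pU_split {L : V →L[ℝ] V} (hL : ∀ w, S.pU (L (S.iS w)) = 0) (v : V) :
    S.pU (L (S.iU (S.pU v))) = S.pU (L v) := by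
  conv_rhs => rw [← S.iS_add v, map_add, map_add, hL, zero_add]

theorem Vol.der {α : Fm m V} (h : Vol S α) {L : V →L[ℝ] V} (hL : ∀ w, S.pU (L (S.iS w)) = 0) :
    Vol S (der m V L α) := fun v => by
  simp only [h.der_apply, S.pU_iU, pU_split hL]

theorem Vol.der_zero {α : Fm m V} (h : Vol S α) {L : V →L[ℝ] V} (hL : ∀ v, S.pU (L v) = 0) :
    Vale.Agent.P207Z.der m V L α = 0 := ContinuousAlternatingMap.ext fun v => by
  rw [h.der_apply]
  refine Finset.sum_eq_zero fun i _ => ?_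
  rw [hL, map_zero]
  exact α.map_update_zero _ i

theorem Vol.fderiv {g : E → Fm m V} (hg : DifferentiableAt ℝ g 0) (h : ∀ᶠ w in 𝓝 0, Vol S (g w))
    (w : E) : Vol S (fderiv ℝ g 0 w) := fun v => by
  have h1 := ((ContinuousAlternatingMap.apply ℝ V ℝ v).hasFDerivAt.comp 0 hg.hasFDerivAt).fderiv
  have h2 := ((ContinuousAlternatingMap.apply ℝ V ℝ fun i => S.iU (S.pU (v i))).hasFDerivAt.comp 0
    hg.hasFDerivAt).fderiv
  have h3 := h1.symm.trans ((EventuallyEq.fderiv_eq (h.mono fun w hw => hw v)).trans h2)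
  exact congrArg (fun L : E →L[ℝ] ℝ => L w) h3

theorem iS_mem {r : ℝ} {w : E} (hw : w ∈ ball (0 : E) r) : S.iS w ∈ ball (0 : V) r := by
  rwa [mem_ball_zero_iff, S.norm_iS, ← mem_ball_zero_iff]

theorem es_vol (M : Marg S b) (x : X) {w : E} (hw : w ∈ ball (0 : E) 1) :
    Vol S (M.es x (S.iS w)) := fun v => by
  have hq := iS_mem (S := S) hw
  obtain ⟨y, h1, h2⟩ := S.exists_frame _ _ (S.c_ne x _ hq)
  have hy : S.pt y = S.c x (S.iS w) := Prod.ext h1 h2
  have h0 := Sys.zero_dom' hq hy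
  have h3 := M.es_eqv y x 0 h0
  have h4 := Sys.τ_dom h0
  rw [Sys.τ_zero' hq hy] at h3 h4
  obtain ⟨s, hs⟩ := M.es_zero y
  have h5 : S.ep x = S.ep y := (h2.trans ((S.c_S x _ hq).2 (S.pU_iS w))).symm
  simp only [h3, ContinuousAlternatingMap.smul_apply, Function.comp_apply,
    ContinuousAlternatingMap.compContinuousLinearMap_apply, hs,
    pU_split (Sys.pU_fderiv_τ h5 h4 (S.pU_iS w))]

/-! ### the reference section -/

/-- the Margulis section, extended off the stable axis -/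
def ref (M : Marg S b) (x : X) (q : V) : Fm m V × ℝ := (M.es x (S.iS (S.pS q)), 1)

theorem contDiffAt_es (M : Marg S b) (x : X) : ContDiffAt ℝ ∞ (fun w => M.es x (S.iS w)) 0 :=
  M.es_S.contDiffAt (p := (x, 0)) ⟨mem_univ _, mem_ball_self one_pos⟩

theorem contDiffAt_ref (M : Marg S b) (x : X) : ContDiffAt ℝ ∞ (ref M x) 0 := by
  have h := contDiffAt_es M x
  rw [← map_zero S.pS] at h
  exact (h.comp 0 S.pS.contDiff.contDiffAt).prodMk contDiffAt_const

theorem ref_iS (M : Marg S b) (x : X) (w : E) : ref M x (S.iS w) = (M.es x (S.iS w), 1) := by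
  rw [ref, S.pS_iS]

theorem ref_zero (M : Marg S b) (x : X) : ref M x 0 = (M.es x 0, 1) := by
  rw [ref, map_zero, map_zero]

/-- the first component of the Lie derivative of the reference section -/
def ell (M : Marg S b) (x : X) (v : V) (L : V →L[ℝ] V) : Fm m V :=
  fderiv ℝ (fun w => M.es x (S.iS w)) 0 (S.pS v) + der m V L (M.es x 0)

theorem lieF_ref (M : Marg S b) (x : X) (Z : V → V) :
    lieF Z (ref M x) = (ell M x (Z 0) (fderiv ℝ Z 0), 0) := by
  have h := ((contDiffAt_es M x).differentiableAt (by simp)).hasFDerivAt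
  have h' := h
  rw [← map_zero S.pS] at h'
  have d := ((h'.comp 0 S.pS.hasFDerivAt).prodMk (hasFDerivAt_const (1 : ℝ) (0 : V))).fderiv
  rw [lieF, ref_zero, drho_apply]
  erw [d]
  simp [ell]

theorem lieF_congr {Z : V → V} {s s' : V → Fm m V × ℝ} (hZ : Z 0 ∈ S.Es)
    (hs : DifferentiableAt ℝ s 0) (hs' : DifferentiableAt ℝ s' 0)
    (e : ∀ᶠ w in 𝓝 (0 : E), s (S.iS w) = s' (S.iS w)) : lieF Z s = lieF Z s' := by
  obtain ⟨w, hw⟩ := hZ
  have h0 := e.self_of_nhds
  rw [map_zero] at h0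
  have h1 : HasFDerivAt s (fderiv ℝ s 0) (S.iS 0) := by rw [map_zero]; exact hs.hasFDerivAt
  have h2 : HasFDerivAt s' (fderiv ℝ s' 0) (S.iS 0) := by rw [map_zero]; exact hs'.hasFDerivAt
  have h3 := (h1.comp 0 S.iS.hasFDerivAt).fderiv.symm.trans
    ((EventuallyEq.fderiv_eq e).trans (h2.comp 0 S.iS.hasFDerivAt).fderiv)
  rw [lieF, lieF, h0, ← hw]
  exact congrArg (· - _) (congrArg (fun L : E →L[ℝ] Fm m V × ℝ => L w) h3)

theorem A_es (hΦ : IsFrm M Φ) {x y : X} {q : V} (h : q ∈ S.dom x y) (k r : ℝ) :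
    Φ.A x y q (k • M.es x q, r) = (k • M.es y (S.τ x y q), r) := by
  rw [hΦ _ _ _ h, M.es_eqv _ _ _ h, smul_comm k]
  rfl

theorem push_zero {x y : X} (hT : IsTan T) (h : S.pt y = S.pt x) (Z : V → V) :
    push T x y Z 0 = fderiv ℝ (S.τ x y) 0 (Z 0) := by
  rw [push, Sys.τ_zero h, hT _ _ _ (Sys.zero_dom h.symm)]

/-- change of the frame over one geodesic -/
theorem lieF_move (Tm : Tim S M) (hT : IsTan T) (hΦ : IsFrm M Φ) {x y : X} (h : S.pt y = S.pt x)
    {Z : V → V} (hZ : DifferentiableAt ℝ Z 0) (h0 : Z 0 ∈ S.Es) :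
    lieF (push T x y Z) (ref M y) = Φ.A x y 0 (lieF Z (ref M x)) := by
  have hd := Sys.zero_dom h.symm
  have hr : ∀ x, DifferentiableAt ℝ (ref M x) 0 := fun x =>
    (contDiffAt_ref M x).differentiableAt (by simp)
  have he : S.ep y = S.ep x := congrArg Prod.snd h
  have h1 := tl_nat Tm hT hΦ hd (s' := push Φ x y (ref M x)) hZ (hr x)
    (differentiableAt_push T hd hZ) (push_eq T hd Z) (push_eq Φ hd (ref M x))
  have h2 := differentiableAt_push Φ hd (hr x)
  rw [Sys.τ_zero h.symm] at h1 h2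
  rw [tl_zero _ Z, tl_zero _ (push T x y Z)] at h1
  rw [← h1]
  refine lieF_congr (S := S) ?_ (hr y) h2 ?_
  · obtain ⟨w, hw⟩ := h0
    rw [push_zero hT h, ← hw, S.mem_Es]
    exact Sys.pU_fderiv_τ he.symm hd (map_zero _) w
  · have h3 : Tendsto S.iS (𝓝 0) (𝓝 0) := by
      have := S.iS.continuous.tendsto 0
      rwa [map_zero] at this
    filter_upwards [h3.eventually (Sys.dom_nhds (Sys.zero_dom h))] with w hw
    have h4 : S.iS (S.pS (S.τ y x (S.iS w))) = S.τ y x (S.iS w) := by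
      conv_rhs => rw [← S.iS_add (S.τ y x (S.iS w)), (Sys.pU_τ he hw).2 (S.pU_iS w), map_zero,
        add_zero]
    have h5 := A_es hΦ (Sys.τ_dom hw) 1 1
    rw [one_smul, one_smul, Sys.τ_τ hw] at h5
    rw [push, ref_iS, ref, h4, h5]

/-! ### sections given by an extension -/

theorem ext_sec {F : Type} [NormedAddCommGroup F] [NormedSpace ℝ F] [FiniteDimensional ℝ F]
    {𝔉 : Bun S F} {W : SSub 𝔉} {k n : ℕ} {x : X} {P : V → F →L[ℝ] F} (hP : Prj k n P)
    (h : 𝔉.ExtS k n (fun y => cmp (W.J k y)) x (cmp P)) {u : V → F} (hu : ContDiffAt ℝ k u 0) :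
    W.IsSec k x fun q => P q (u q) := by
  have h1 := (hP.ckb.contDiffAt (rad_mem n)).clm_apply hu
  refine ⟨h1, ((h.1 x rfl).2.congr EventuallyEq.rfl (𝔉.pull_self x _).symm).flat_apply le_rfl
    h1.continuousAt (Flat.zero.congr ?_)⟩
  filter_upwards [hP.idem0] with q hq using SecAux.cmp_idem hq _

/-- a section of the hull which is the Margulis section along the stable axis -/
theorem exists_sec_ref (hΦ : IsFrm M Φ) {W : SSub Φ} (h : ∀ᵐ x ∂S.μ, (M.es x 0, (1 : ℝ)) ∈ W.H x) :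
    ∀ᵐ x ∂S.μ, ∃ s, W.IsSec 1 x s ∧ ∀ᶠ w in 𝓝 (0 : E), s (S.iS w) = ref M x (S.iS w) := by
  filter_upwards [(W.extS 1).ae, ae_all_iff.2 fun n => W.valS (k := 1) (n := n), Sys.ae_alongS h]
    with x ⟨n, P, hP, he⟩ h1 h2
  refine ⟨_, ext_sec hP he ((contDiffAt_ref M x).of_le (by exact_mod_cast le_top)), ?_⟩
  have sub : ball (0 : E) (rad n) ⊆ ball 0 1 := ball_subset_ball (rad_le_one _)
  have c1 : ContinuousOn (fun w => ref M x (S.iS w)) (ball 0 (rad n)) := by
    simp only [ref_iS]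
    exact ((M.es_S.continuousOn.comp (f := fun w : E => (x, w)) (by fun_prop)
      fun w hw => ⟨mem_univ _, sub hw⟩).prodMk continuousOn_const)
  have c2 : ContinuousOn (fun w => P (S.iS w)) (ball 0 (rad n)) :=
    hP.ckb.smooth.continuousOn.comp S.iS.continuous.continuousOn fun w hw => iS_mem hw
  have h3 := Axis.dense_le (f := fun w => ‖P (S.iS w) (ref M x (S.iS w)) - ref M x (S.iS w)‖)
    (g := fun _ => 0) isOpen_ball ((c2.clm_apply c1).sub c1).norm continuousOn_const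
    fun O hO hne hs => by
      obtain ⟨w, hw, y, hy, h4, h5⟩ := ((h1 n P hP he).2.and (h2 (rad n))).dense hO hne
        (hs.trans sub) hs
      have hq := iS_mem (S := S) (sub (hs hw))
      have h6 := A_es hΦ (Sys.zero_dom' hq hy) 1 1
      rw [Sys.τ_zero' hq hy] at h4 h6
      rw [one_smul, one_smul, ← ref_iS] at h6
      obtain ⟨u, hu⟩ : ref M x (S.iS w) ∈ (P (S.iS w)).range := h4 ▸ ⟨_, h5, h6⟩
      refine ⟨w, hw, le_of_eq ?_⟩
      have h7 := congrArg (· u) (hP.idem _ (iS_mem (S := S) (hs hw)))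
      simp only [← hu, ContinuousLinearMap.coe_coe, ← ContinuousLinearMap.mul_apply] at h7 ⊢
      rw [h7, sub_self, norm_zero]
  filter_upwards [ball_mem_nhds (0 : E) (rad_pos n)] with w hw
  exact sub_eq_zero.1 (norm_le_zero_iff.1 (h3 w hw))

/-- the bound at a good frame -/
theorem ell_bound (M : Marg S b) {F : SSub T} (hF : ∀ᵐ x ∂S.μ, F.H x ≤ S.Es) :
    ∃ C : ℕ → ℝ, (∀ n, 0 ≤ C n) ∧ ∀ᵐ x ∂S.μ, ∀ n, F.QS 1 n x → ∀ Z, F.IsSec 1 x Z →
      ‖ell M x (Z 0) (fderiv ℝ Z 0)‖ ≤ C n * ‖Z 0‖ := by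
  obtain ⟨C, hC, h⟩ := S.unif_one M.es_S (fun g x w hw => M.es_smul g x _ (iS_mem hw)) one_pos 1
  refine ⟨fun n => C + ‖der m V‖ * n * C, fun n => by positivity, ?_⟩
  filter_upwards [hF, sec_mem F, sec_fderiv F, ae_all_iff.2 fun n => F.valS (k := 1) (n := n)]
    with x h1 h2 h3 h4 n ⟨P, hP, he⟩ Z hZ
  have h5 := ext_sec hP he (contDiffAt_const (c := Z 0))
  have h6 : P 0 (Z 0) = Z 0 := by
    obtain ⟨u, hu⟩ : Z 0 ∈ (P 0).range := (h4 n P hP he).1 ▸ h2 1 Z hZ
    rw [← hu]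
    exact congrArg (· u) (hP.idem 0 (rad_mem n))
  have dP : DifferentiableAt ℝ P 0 := (hP.ckb.contDiffAt (rad_mem n)).differentiableAt (by simp)
  have dZ : DifferentiableAt ℝ Z 0 := hZ.1.differentiableAt (by simp)
  have d := (dZ.hasFDerivAt.add ((dP.hasFDerivAt.clm_apply
    (hasFDerivAt_const (Z 0) (0 : V))).const_smul (-1 : ℝ))).fderiv
  have h7 := h3 _ (hZ.add (h5.smul (contDiffAt_const (c := (-1 : ℝ))))) (by simp [h6])
  erw [d] at h7
  have hv : Vol S (M.es x 0) := by simpa using es_vol M x (mem_ball_self one_pos)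
  have h8 := hv.der_zero fun v => (S.mem_Es).1 (h1 (h7 v))
  rw [ContinuousLinearMap.comp_zero, zero_add, map_add, neg_one_smul, map_neg,
    ContinuousLinearMap.add_apply, ContinuousLinearMap.neg_apply, add_neg_eq_zero] at h8
  have b0 := h x 0 (by simp) 0 (by simp)
  have b1 := h x 0 (by simp) 1 le_rfl
  have b2 := hP.ckb.bd 1 le_rfl 0 (rad_mem n)
  rw [norm_iteratedFDeriv_zero, map_zero] at b0
  rw [norm_iteratedFDeriv_one] at b1 b2
  have b3 : ‖(fderiv ℝ P 0).flip (Z 0)‖ ≤ n * ‖Z 0‖ := by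
    grw [ContinuousLinearMap.le_opNorm, ContinuousLinearMap.opNorm_flip, b2]
  rw [ell, h8]
  grw [norm_add_le, ContinuousLinearMap.le_opNorm, ContinuousLinearMap.le_opNorm₂, b0, b1, b3,
    S.norm_pS_le]
  exact le_of_eq (by ring)

/-- the Lie derivative of the Margulis section vanishes -/
theorem lieF_ref_zero (P : Prob S Y) (Tm : Tim S M) (hT : IsTan T) (hΦ : IsFrm M Φ) {F : SSub T}
    (hF : ∀ᵐ x ∂S.μ, F.H x ≤ S.Es) :
    ∀ᵐ x ∂S.μ, ∀ Z, F.IsSec 1 x Z → lieF Z (ref M x) = 0 := by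
  obtain ⟨C, hC, h⟩ := ell_bound M hF
  have ne := fun x => M.es_ne x 0 (mem_ball_self one_pos)
  obtain ⟨C', hC', h'⟩ := S.unif_cont (f := fun x q => ‖M.es x q‖⁻¹)
    (M.es_cont.norm.inv₀ fun p hp => norm_ne_zero_iff.2 (M.es_ne _ _ hp.2))
    (fun g x q hq => by rw [M.es_smul g x q hq]) one_pos
  obtain ⟨C'', h''⟩ := S.contrS 1 le_rfl
  filter_upwards [hF, sec_mem F, sec_tanS hT hF, F.sec_move 1, Sys.ae_φ h,
    P.window (F.extS 1) (F.port_QS 1)] with x h1 h2 h3 h4 h5 h6 Z hZ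
  have h0 := h1 (h2 1 Z hZ)
  have hv : Vol S (M.es x 0) := by simpa using es_vol M x (mem_ball_self one_pos)
  have h7 : Vol S (ell M x (Z 0) (fderiv ℝ Z 0)) := fun v => by
    rw [ell, ContinuousAlternatingMap.add_apply, ContinuousAlternatingMap.add_apply,
      ← hv.der (h3 Z hZ) v, ← Vol.fderiv ((contDiffAt_es M x).differentiableAt (by simp))
        (by filter_upwards [ball_mem_nhds (0 : E) one_pos] with w hw using es_vol M x hw) _ v]
  obtain ⟨k, hk⟩ := h7.smul b hv (ne x)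
  obtain ⟨n, hn⟩ := h6 1 one_pos
  obtain ⟨w, hw⟩ := id h0
  have h8 : ∀ᶠ t : ℝ in atTop, |k| ≤ C' * C n * |C''| * ‖w‖ * Real.exp (-S.lam * t) := by
    filter_upwards [hn, eventually_ge_atTop 0] with t ⟨⟨j, j1, _, j2⟩, _⟩ ht
    have hp := S.pt_φ j x
    have hd := Sys.zero_dom hp.symm
    have e1 := lieF_move Tm hT hΦ hp (hZ.1.differentiableAt (by simp)) h0
    rw [lieF_ref, lieF_ref, hk, A_es hΦ hd, Sys.τ_zero hp.symm] at e1
    have e2 := h5 j n j2 _ (h4 _ hp Z hZ)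
    have e3 := (Prod.ext_iff.1 e1).1
    have e4 := h'' x j (ht.trans j1) 0 (mem_ball_self S.ρ_pos)
    have e5 : HasFDerivAt (S.τ x (S.φ j x)) (fderiv ℝ (S.τ x (S.φ j x)) 0) (S.iS 0) := by
      rw [map_zero]; exact (Sys.differentiableAt_τ hd).hasFDerivAt
    rw [norm_iteratedFDeriv_one] at e4
    erw [(e5.comp 0 S.iS.hasFDerivAt).fderiv] at e4
    have e6 : ‖push T x (S.φ j x) Z 0‖ ≤ |C''| * Real.exp (-S.lam * t) * ‖w‖ := by
      rw [push_zero hT hp, ← hw]
      refine ((fderiv ℝ (S.τ x (S.φ j x)) 0 ∘L S.iS).le_opNorm w).trans ?_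
      grw [e4, le_abs_self C'', mul_le_mul_of_nonpos_left j1 (neg_nonpos.2 S.lam_pos.le)]
    have e7 := h' (S.φ j x) 0 (by simp)
    have e8 := norm_pos_iff.2 (ne (S.φ j x))
    rw [Real.norm_of_nonneg (by positivity), inv_le_iff_one_le_mul₀ e8] at e7
    change ‖ell M _ (push T x (S.φ j x) Z 0) (fderiv ℝ (push T x (S.φ j x) Z) 0)‖
      ≤ C n * ‖push T x (S.φ j x) Z 0‖ at e2
    simp only at e3
    rw [e3, norm_smul, Real.norm_eq_abs] at e2
    have := hC n
    calc |k| = |k| * 1 := (mul_one _).symm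
      _ ≤ |k| * (C' * ‖M.es (S.φ j x) 0‖) := by gcongr
      _ = C' * (|k| * ‖M.es (S.φ j x) 0‖) := by ring
      _ ≤ C' * (C n * (|C''| * Real.exp (-S.lam * t) * ‖w‖)) := by grw [e2, e6]
      _ = _ := by ring
  have h9 : Tendsto (fun t : ℝ => C' * C n * |C''| * ‖w‖ * Real.exp (-S.lam * t)) atTop (𝓝 0) := by
    simpa using (Real.tendsto_exp_atBot.comp
      (tendsto_id.const_mul_atTop_of_neg (neg_neg_of_pos S.lam_pos))).const_mul
        (C' * C n * |C''| * ‖w‖)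
  rw [lieF_ref, hk, abs_nonpos_iff.1 (ge_of_tendsto h9 h8), zero_smul]
  rfl

end LieW

end Vale.Agent.P207Z
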