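import Vale.Agent.P207Z.Geo.Stab
import Vale.Agent.P207Z.Ops

/-!
# P207: the twisted Lie derivative is natural
-/

set_option linter.all false
set_option maxSynthPendingDepth 3

open Set Filter Topology Metric MeasureTheory VectorField
open scoped ContDiff

noncomputable section

namespace Vale.Agent.P207Z

open Vale.Agent.P207.N3 (JC)

variable {Γ X B E V Y : Type} [Group Γ] [Countable Γ] [MetricSpace X] [ProperSpace X]
  [MulAction Γ X] [IsIsometricSMul Γ X] [MeasurableSpace X] [BorelSpace X]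
  [TopologicalSpace B] [CompactSpace B] [T2Space B] [SecondCountableTopology B] [MulAction Γ B]
  [ContinuousConstSMul Γ B] [MeasurableSpace B] [BorelSpace B]
  [NormedAddCommGroup E] [InnerProductSpace ℝ E] [FiniteDimensional ℝ E]
  [NormedAddCommGroup V] [NormedSpace ℝ V] [FiniteDimensional ℝ V]
  [MeasurableSpace Y] [MulAction Γ Y]
  {S : Sys Γ X B E V} {T : Bun S V} {m : ℕ} {b : Module.Basis (Fin m) ℝ E} {M : Marg S b}
  {Φ : Bun S (Fm m V × ℝ)}

namespace LieW

/-- the Lie derivative commutes with the pull-back -/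
theorem lie_pull {σ : V → V} {p : V} (hσ : ContDiffAt ℝ ∞ σ p) {α : V → Fm m V} {Z Z' : V → V}
    (hα : DifferentiableAt ℝ α (σ p)) (hZ : DifferentiableAt ℝ Z (σ p))
    (hZ' : DifferentiableAt ℝ Z' p) (e : ∀ᶠ p' in 𝓝 p, Z (σ p') = fderiv ℝ σ p' (Z' p')) :
    fderiv ℝ (fun p' => (α (σ p')).compContinuousLinearMap (fderiv ℝ σ p')) p (Z' p)
      + der m V (fderiv ℝ Z' p) ((α (σ p)).compContinuousLinearMap (fderiv ℝ σ p))
    = (fderiv ℝ α (σ p) (Z (σ p))
      + der m V (fderiv ℝ Z (σ p)) (α (σ p))).compContinuousLinearMap (fderiv ℝ σ p) := by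
  have h1 : DifferentiableAt ℝ σ p := hσ.differentiableAt (by simp)
  have h2 : DifferentiableAt ℝ (fderiv ℝ σ) p :=
    (hσ.fderiv_right (m := ∞) (by simp)).differentiableAt (by simp)
  have h3 : IsSymmSndFDerivAt ℝ σ p :=
    hσ.isSymmSndFDerivAt (by rw [minSmoothness_of_isRCLikeNormedField]; exact ENat.LEInfty.out)
  have h4 : ∀ u, fderiv ℝ Z (σ p) (fderiv ℝ σ p u)
      = fderiv ℝ (fderiv ℝ σ) p (Z' p) u + fderiv ℝ σ p (fderiv ℝ Z' p u) := fun u => by
    have a := (hZ.hasFDerivAt.comp p h1.hasFDerivAt).fderiv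
    have a' := (h2.hasFDerivAt.clm_apply hZ'.hasFDerivAt).fderiv
    have a'' : fderiv ℝ (Z ∘ σ) p = fderiv ℝ (fun p' => fderiv ℝ σ p' (Z' p')) p :=
      EventuallyEq.fderiv_eq e
    have := congrArg (fun L => L u) (a.symm.trans (a''.trans a'))
    simp only [ContinuousLinearMap.comp_apply, ContinuousLinearMap.add_apply,
      ContinuousLinearMap.flip_apply] at this
    rw [this, h3.eq u, add_comm]
  have h5 := ((hα.hasFDerivAt.comp p h1.hasFDerivAt).continuousAlternatingMapCompContinuousLinearMap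
    h2.hasFDerivAt).fderiv
  simp only [Function.comp_apply] at h5
  rw [h5]
  ext v
  simp only [ContinuousLinearMap.comp_apply, ContinuousLinearMap.add_apply,
    ContinuousAlternatingMap.add_apply, ContinuousAlternatingMap.compContinuousLinearMapCLM_apply,
    ContinuousAlternatingMap.compContinuousLinearMap_apply, der_apply,
    ContinuousAlternatingMap.fderivCompContinuousLinearMap_apply, ← e.self_of_nhds, add_assoc,
    ← Finset.sum_add_distrib, Function.comp_update, Function.comp_apply, h4]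
  congr 1
  refine Finset.sum_congr rfl fun i _ => ?_
  rw [ContinuousAlternatingMap.map_update_add]
  congr 2
  funext j
  by_cases h : j = i
  · rw [h, Function.update_self, Function.update_self]
  · rw [Function.update_of_ne h, Function.update_of_ne h, Function.comp_apply]

/-- the map which sends the jet `v, L` to the pair `L, c * al q v` -/
def arg (S : Sys Γ X B E V) (c : ℝ) (q : V) : V × (V →L[ℝ] V) →L[ℝ] (V →L[ℝ] V) × ℝ :=
  ContinuousLinearMap.inl ℝ _ _ ∘L ContinuousLinearMap.snd ℝ _ _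
    + ContinuousLinearMap.inr ℝ _ _ ∘L (c • S.al q) ∘L ContinuousLinearMap.fst ℝ _ _

theorem arg_apply (c : ℝ) (q : V) (j : V × (V →L[ℝ] V)) :
    arg S c q j = (j.2, c * S.al q j.1) := by
  simp [arg]

/-- the twisted Lie derivative, on jets -/
def tl (S : Sys Γ X B E V) (m : ℕ) (c : ℝ) (q : V) :
    (Fm m V × ℝ) × (V →L[ℝ] Fm m V × ℝ) →L[ℝ] V × (V →L[ℝ] V) →L[ℝ] Fm m V × ℝ :=
  (ContinuousLinearMap.compL ℝ (V × (V →L[ℝ] V)) V (Fm m V × ℝ)).flip
      (ContinuousLinearMap.fst ℝ V (V →L[ℝ] V)) ∘L ContinuousLinearMap.snd ℝ _ _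
    - (ContinuousLinearMap.compL ℝ (V × (V →L[ℝ] V)) ((V →L[ℝ] V) × ℝ) (Fm m V × ℝ)).flip
      (arg S c q) ∘L (drhoL m V).flip ∘L ContinuousLinearMap.fst ℝ _ _

theorem tl_apply (c : ℝ) (q : V) (a : (Fm m V × ℝ) × (V →L[ℝ] Fm m V × ℝ))
    (j : V × (V →L[ℝ] V)) :
    tl S m c q a j = a.2 j.1 - drho m V (j.2, c * S.al q j.1) a.1 := by
  simp [tl, arg_apply, drhoL_apply]

theorem al_zero : S.al 0 = 0 := by simp [Sys.al]

theorem tl_zero (c : ℝ) (Z : V → V) (s : V → Fm m V × ℝ) :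
    tl S m c 0 (s 0, fderiv ℝ s 0) (Z 0, fderiv ℝ Z 0) = lieF Z s := by
  simp [tl_apply, al_zero, lieF]

theorem contDiff_tl (c : ℝ) : ContDiff ℝ ∞ (tl S m c) := by
  have h1 : ContDiff ℝ ∞ S.al :=
    (((innerSL ℝ : E →L[ℝ] E →L[ℝ] ℝ) ∘L S.pS).contDiff).clm_comp contDiff_const
  have h2 : ContDiff ℝ ∞ (arg S c) :=
    contDiff_const.add (contDiff_const.clm_comp ((h1.const_smul c).clm_comp contDiff_const))
  exact contDiff_const.sub ((((ContinuousLinearMap.compL ℝ (V × (V →L[ℝ] V)) ((V →L[ℝ] V) × ℝ)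
    (Fm m V × ℝ)).flip.contDiff).comp h2).clm_comp
    contDiff_const)

/-- the logarithmic derivative of the factor -/
theorem fderiv_f (Tm : Tim S M) {x y : X} {q : V} (h : q ∈ S.dom x y) (v : V) :
    fderiv ℝ (M.f x y) q v = M.f x y q * (Tm.h / Tm.κ * S.al (S.τ x y q) (fderiv ℝ (S.τ x y) q v)
      - Tm.h / Tm.κ * S.al q v) := by
  have h1 : DifferentiableAt ℝ (M.f x y) q := M.f_jc.differentiableAt (p := ((x, y), q)) h
  have h2 : DifferentiableAt ℝ (Tm.dt x y) q := Tm.dt_jc.differentiableAt (p := ((x, y), q)) h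
  have h3 : ∀ q' ∈ S.dom x y, M.f x y q' * M.f x y q'
      = Real.exp (Tm.h * Tm.dt x y q') * Real.exp (Tm.h * Tm.dt x y q') := fun q' hq => by
    rw [← Tm.f_abs x y q' hq, abs_mul_abs_self]
  have h4 := (h1.hasFDerivAt.mul h1.hasFDerivAt).fderiv
  have h5 := (h2.hasFDerivAt.const_mul Tm.h).exp
  have h6 := (h5.mul h5).fderiv
  have h7 : fderiv ℝ (M.f x y * M.f x y) q = fderiv ℝ ((fun q' => Real.exp (Tm.h * Tm.dt x y q'))
      * fun q' => Real.exp (Tm.h * Tm.dt x y q')) q :=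
    EventuallyEq.fderiv_eq (by filter_upwards [Sys.dom_nhds h] with q' hq using h3 q' hq)
  have h8 := congrArg (fun L => L v) (h4.symm.trans (h7.trans h6))
  have h9 := congrArg (fun L => L v) (Tm.al_τ x y q h)
  simp only [ContinuousLinearMap.add_apply, ContinuousLinearMap.smul_apply, smul_eq_mul,
    ContinuousLinearMap.comp_apply] at h8 h9
  have h10 := M.f_ne h
  have h11 := Tm.κ_ne
  have h12 := h3 q h
  rw [h9]
  have h13 : fderiv ℝ (M.f x y) q v = M.f x y q * (Tm.h * fderiv ℝ (Tm.dt x y) q v) :=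
    mul_left_cancel₀ h10 (by linear_combination h8 / 2 - Tm.h * fderiv ℝ (Tm.dt x y) q v * h12)
  rw [h13]
  field_simp
  ring

/-- naturality of the twisted Lie derivative -/
theorem tl_nat (Tm : Tim S M) (hT : IsTan T) (hΦ : IsFrm M Φ) {x y : X} {q : V}
    (h : q ∈ S.dom x y) {Z Z' : V → V} {s s' : V → Fm m V × ℝ} (hZ : DifferentiableAt ℝ Z q)
    (hs : DifferentiableAt ℝ s q) (hZ' : DifferentiableAt ℝ Z' (S.τ x y q))
    (eZ : ∀ᶠ q' in 𝓝 q, Z' (S.τ x y q') = T.A x y q' (Z q'))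
    (es : ∀ᶠ q' in 𝓝 q, s' (S.τ x y q') = Φ.A x y q' (s q')) :
    tl S m (Tm.h / Tm.κ) (S.τ x y q) (s' (S.τ x y q), fderiv ℝ s' (S.τ x y q))
      (Z' (S.τ x y q), fderiv ℝ Z' (S.τ x y q))
    = Φ.A x y q (tl S m (Tm.h / Tm.κ) q (s q, fderiv ℝ s q) (Z q, fderiv ℝ Z q)) := by
  have hp := Sys.τ_dom h
  have hq := Sys.τ_τ h
  have hσ := Sys.differentiableAt_τ hp
  have ht : Tendsto (S.τ y x) (𝓝 (S.τ x y q)) (𝓝 q) := by
    have := hσ.continuousAt.tendsto
    rwa [hq] at this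
  have e1 : ∀ᶠ p in 𝓝 (S.τ x y q), Z (S.τ y x p) = fderiv ℝ (S.τ y x) p (Z' p) := by
    filter_upwards [ht.eventually eZ, Sys.dom_nhds hp] with p h1 h2
    rw [Sys.τ_τ h2, hT _ _ _ (Sys.τ_dom h2)] at h1
    rw [h1, ← ContinuousLinearMap.mul_apply, Sys.fderiv_τ_inv' h2, ContinuousLinearMap.one_apply]
  have e2 : s' =ᶠ[𝓝 (S.τ x y q)] fun p => (M.f x y (S.τ y x p) •
      (s (S.τ y x p)).1.compContinuousLinearMap (fderiv ℝ (S.τ y x) p), (s (S.τ y x p)).2) := by
    filter_upwards [ht.eventually es, Sys.dom_nhds hp] with p h1 h2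
    rw [hΦ _ _ _ (Sys.τ_dom h2), Sys.τ_τ h2] at h1
    exact h1
  have hs1 : DifferentiableAt ℝ (fun q => (s q).1) (S.τ y x (S.τ x y q)) := by
    rw [hq]; exact hs.fst
  have hs2 : HasFDerivAt s (fderiv ℝ s q) (S.τ y x (S.τ x y q)) := by
    rw [hq]; exact hs.hasFDerivAt
  have hf : HasFDerivAt (M.f x y) (fderiv ℝ (M.f x y) q) (S.τ y x (S.τ x y q)) := by
    rw [hq]; exact (M.f_jc.differentiableAt (p := ((x, y), q)) h).hasFDerivAt
  have key := lie_pull (Sys.contDiffAt_τ hp) hs1 (by rw [hq]; exact hZ) hZ' e1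
  have hβ : DifferentiableAt ℝ (fun p => (s (S.τ y x p)).1.compContinuousLinearMap
      (fderiv ℝ (S.τ y x) p)) (S.τ x y q) :=
    (hs1.comp _ hσ).continuousAlternatingMapCompContinuousLinearMap
      (((Sys.contDiffAt_τ hp).fderiv_right (m := ∞) (by simp)).differentiableAt (by simp))
  have d := (((hf.comp _ hσ.hasFDerivAt).smul hβ.hasFDerivAt).prodMk
    (hs2.comp _ hσ.hasFDerivAt).snd).fderiv
  have e3 := e1.self_of_nhds
  have e4 := eZ.self_of_nhds
  rw [hT _ _ _ h] at e4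
  rw [hq] at e3
  rw [hq, fderiv.fst hs] at key
  rw [tl_apply, tl_apply, e2.fderiv_eq, e2.self_of_nhds, hΦ _ _ _ h]
  erw [d]
  simp only [drho_apply, ContinuousLinearMap.prod_apply, ContinuousLinearMap.add_apply,
    ContinuousLinearMap.comp_apply, ContinuousLinearMap.smul_apply, Function.comp_apply, hq,
    ContinuousLinearMap.smulRight_apply, ← e3, fderiv_f Tm h, ← e4, Prod.mk_sub_mk, sub_zero,
    Prod.fst_sub, Prod.snd_sub, ContinuousLinearMap.coe_snd', ContinuousLinearMap.coe_fst',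
    eq_sub_of_add_eq key]
  simp only [← ContinuousAlternatingMap.compContinuousLinearMapCLM_apply, map_add, map_sub,
    map_smul]
  congr 1
  module

section Push

variable {F : Type} [NormedAddCommGroup F] [NormedSpace ℝ F] [FiniteDimensional ℝ F]

/-- a section read in another chart -/
def push (𝔉 : Bun S F) (x y : X) (s : V → F) (p : V) : F := 𝔉.A x y (S.τ y x p) (s (S.τ y x p))

theorem push_eq (𝔉 : Bun S F) {x y : X} {q : V} (h : q ∈ S.dom x y) (s : V → F) :
    ∀ᶠ q' in 𝓝 q, push 𝔉 x y s (S.τ x y q') = 𝔉.A x y q' (s q') := by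
  filter_upwards [Sys.dom_nhds h] with q' h'
  rw [push, Sys.τ_τ h']

theorem differentiableAt_push (𝔉 : Bun S F) {x y : X} {q : V} (h : q ∈ S.dom x y) {s : V → F}
    (hs : DifferentiableAt ℝ s q) : DifferentiableAt ℝ (push 𝔉 x y s) (S.τ x y q) := by
  have h1 : DifferentiableAt ℝ (fun q => 𝔉.A x y q (s q)) (S.τ y x (S.τ x y q)) := by
    rw [Sys.τ_τ h]
    exact ((𝔉.contDiffAt h).differentiableAt (by simp)).clm_apply hs
  exact h1.comp _ (Sys.differentiableAt_τ (Sys.τ_dom h))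

theorem exists_jet (𝔉 : Bun S F) {x y : X} {q : V} (h : q ∈ S.dom x y) (a : F × (V →L[ℝ] F)) :
    ∃ s s' : V → F, DifferentiableAt ℝ s q ∧ DifferentiableAt ℝ s' (S.τ x y q) ∧
      (∀ᶠ q' in 𝓝 q, s' (S.τ x y q') = 𝔉.A x y q' (s q')) ∧ a = (s q, fderiv ℝ s q) := by
  have h1 : HasFDerivAt (fun q' => a.1 - a.2 q + a.2 q') a.2 q := a.2.hasFDerivAt.const_add _
  exact ⟨_, _, h1.differentiableAt, differentiableAt_push 𝔉 h h1.differentiableAt, push_eq 𝔉 h _,
    by rw [h1.fderiv, sub_add_cancel]⟩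

theorem mor_fst (𝔉 : Bun S F) : Mor 𝔉.jet1 𝔉 (ContinuousLinearMap.fst ℝ F (V →L[ℝ] F)) :=
  Mor.of_eq fun x y q h => ContinuousLinearMap.ext fun a => by
    obtain ⟨s, s', hs, hs', es, rfl⟩ := exists_jet 𝔉 h a
    rw [ContinuousLinearMap.comp_apply, 𝔉.jet1_A h hs hs' es]
    exact es.self_of_nhds

end Push

/-- the twisted Lie derivative is a morphism -/
theorem morV_tl (Tm : Tim S M) (hT : IsTan T) (hΦ : IsFrm M Φ) :
    MorV Φ.jet1 (T.jet1.hom Φ) fun _ => tl S m (Tm.h / Tm.κ) where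
  jc := JC.of_contDiff (contDiff_tl _) (isOpen_univ.prod isOpen_ball)
  smul _ _ := rfl
  ex := ⟨fun _ _ _ => 1, continuousOn_const, fun x y q h => ⟨one_ne_zero, by
    rw [one_smul]
    refine ContinuousLinearMap.ext fun a => ContinuousLinearMap.ext fun j' => ?_
    obtain ⟨j, rfl⟩ : ∃ j, j' = T.jet1.A x y q j :=
      ⟨_, by rw [← ContinuousLinearMap.mul_apply, T.jet1.inv' h, ContinuousLinearMap.one_apply]⟩
    obtain ⟨s, s', hs, hs', es, rfl⟩ := exists_jet Φ h a
    obtain ⟨Z, Z', hZ, hZ', eZ, rfl⟩ := exists_jet T h j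
    rw [ContinuousLinearMap.comp_apply, ContinuousLinearMap.comp_apply, Bun.hom_A,
      ContinuousLinearMap.comp_apply, ContinuousLinearMap.comp_apply,
      ← ContinuousLinearMap.mul_apply (T.jet1.A y x _), T.jet1.inv h, ContinuousLinearMap.one_apply,
      Φ.jet1_A h hs hs' es, T.jet1_A h hZ hZ' eZ, tl_nat Tm hT hΦ h hZ hs hZ' eZ es]⟩⟩

end LieW

end Vale.Agent.P207Z
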